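import Mathlib

namespace Vale.Agent.P054

open Finset Matrix

/-- integer points of the cube `[-M, M]^d` -/
noncomputable def box (d M : ℕ) : Finset (Fin d → ℤ) := Fintype.piFinset fun _ => Finset.Icc (-(M : ℤ)) M

/-- an integer vector as a real vector -/
def rv {d : ℕ} (x : Fin d → ℤ) : Fin d → ℝ := fun i => (x i : ℝ)

/-- maximum norm -/
def nm {d : ℕ} (x : Fin d → ℤ) : ℕ := Finset.univ.sup fun i => (x i).natAbs

/-- primitive integer vector -/
def Prim {d : ℕ} (w : Fin d → ℤ) : Prop := ∃ x : Fin d → ℤ, w ⬝ᵥ x = 1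

open Classical in
/-- points of the box on the hyperplane orthogonal to `c` -/
noncomputable def V {d : ℕ} (M : ℕ) (c : Fin d → ℝ) : Finset (Fin d → ℤ) :=
  (box d M).filter fun v => c ⬝ᵥ rv v = 0

/-- the points of the box on the hyperplane span it -/
def Good {d : ℕ} (M : ℕ) (c : Fin d → ℝ) : Prop :=
  ∀ y : Fin d → ℝ, c ⬝ᵥ y = 0 → y ∈ Submodule.span ℝ (rv '' (V M c : Set (Fin d → ℤ)))

lemma mem_box' {d M : ℕ} {x : Fin d → ℤ} : x ∈ box d M ↔ ∀ i, |x i| ≤ M := by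
  simp [box, Fintype.mem_piFinset, abs_le]

lemma nm_le {d M : ℕ} {x : Fin d → ℤ} : nm x ≤ M ↔ ∀ i, |x i| ≤ M := by
  simp only [nm, Finset.sup_le_iff, mem_univ, true_imp_iff]
  refine forall_congr' fun i => ?_
  rw [Int.abs_eq_natAbs]
  exact Int.ofNat_le.symm

lemma mem_box {d M : ℕ} {x : Fin d → ℤ} : x ∈ box d M ↔ nm x ≤ M := by
  rw [mem_box', nm_le]

lemma card_box (d M : ℕ) : (box d M).card = (2 * M + 1) ^ d := by
  simp only [box, Fintype.card_piFinset, Int.card_Icc, prod_const, card_univ, Fintype.card_fin]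
  congr 1
  omega

lemma abs_le_nm {d : ℕ} (x : Fin d → ℤ) (i : Fin d) : |x i| ≤ nm x := nm_le.1 le_rfl i

lemma nm_pos {d : ℕ} {x : Fin d → ℤ} (hx : x ≠ 0) : 0 < nm x := by
  by_contra h
  refine hx (funext fun i => ?_)
  have := (nm_le (M := 0)).1 (by omega : nm x ≤ 0) i
  simpa using this

lemma Prim.ne_zero {d : ℕ} {w : Fin d → ℤ} (h : Prim w) : w ≠ 0 := by
  rintro rfl
  obtain ⟨x, hx⟩ := h
  simp at hx

lemma mem_V {d M : ℕ} {c : Fin d → ℝ} {v : Fin d → ℤ} :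
    v ∈ V M c ↔ v ∈ box d M ∧ c ⬝ᵥ rv v = 0 := by
  simp [V]

lemma V_smul {d M : ℕ} {γ : ℝ} (hγ : γ ≠ 0) (c : Fin d → ℝ) : V M (γ • c) = V M c := by
  ext v
  simp [mem_V, hγ]

lemma Good.of_smul {d M : ℕ} {γ : ℝ} (hγ : γ ≠ 0) {c : Fin d → ℝ} (h : Good M (γ • c)) :
    Good M c := fun y hy => by
  have := h y (by simp [hy])
  rwa [V_smul hγ] at this

lemma rv_injective {d : ℕ} : Function.Injective (rv (d := d)) := fun x y h => by
  funext i
  have := congrFun h i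
  simpa [rv] using this

end Vale.Agent.P054
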