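import Vale.Agent.P054.Reduce

namespace Vale.Agent.P054

open Finset Matrix

lemma hyp_rv_dot {d : ℕ} (w x : Fin d → ℤ) : rv w ⬝ᵥ rv x = ((w ⬝ᵥ x : ℤ) : ℝ) := by
  simp [dotProduct, rv]

lemma hyp_point {d M : ℕ} {w : Fin d → ℤ} (hw : Prim w) (h : Good M (rv w)) (s : ℤ)
    (hs0 : 0 ≤ s) (hs : s ≤ (nm w * M : ℕ)) :
    ∃ x : Fin d → ℤ, w ⬝ᵥ x = s ∧ ∀ j, |x j| ≤ ((d + 1) * M : ℕ) := by
  have hpos := nm_pos hw.ne_zero
  obtain ⟨x₀, hx₀⟩ := hw
  have hne : (Finset.univ : Finset (Fin d)).Nonempty := by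
    by_contra hc
    rw [Finset.not_nonempty_iff_eq_empty] at hc
    simp [nm, hc] at hpos
  obtain ⟨i, -, hi⟩ := Finset.exists_mem_eq_sup Finset.univ hne (fun i => (w i).natAbs)
  have hi' : nm w = (w i).natAbs := hi
  have habs : |(w i : ℝ)| = (nm w : ℝ) := by
    rw [hi', Nat.cast_natAbs, Int.cast_abs]
  have hposR : (0 : ℝ) < nm w := by exact_mod_cast hpos
  have hwi : (w i : ℝ) ≠ 0 := by
    intro h0
    rw [h0, abs_zero] at habs
    linarith
  have hdot : w ⬝ᵥ (s • x₀) = s := by rw [dotProduct_smul, hx₀]; simp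
  obtain ⟨x', h1, h2⟩ := reduce h (s • x₀) (Pi.single i ((s : ℝ) / w i)) (by
    rw [hyp_rv_dot, hdot, dotProduct_single]
    simp only [rv]
    field_simp)
  refine ⟨x', ?_, fun j => ?_⟩
  · rw [hyp_rv_dot, hyp_rv_dot, hdot] at h1
    exact_mod_cast h1
  · have hy : |(Pi.single i ((s : ℝ) / w i) : Fin d → ℝ) j| ≤ M := by
      by_cases hj : j = i
      · subst hj
        rw [Pi.single_eq_same, abs_div, habs, div_le_iff₀ hposR, abs_of_nonneg (by exact_mod_cast hs0)]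
        have : (s : ℝ) ≤ ((nm w * M : ℕ) : ℝ) := by exact_mod_cast hs
        push_cast at this
        linarith
      · rw [Pi.single_eq_of_ne hj]; simp
    have h3 := h2 j
    have h4 : |(x' j : ℝ)| ≤ (((d + 1) * M : ℕ) : ℝ) := by
      have := abs_sub_abs_le_abs_sub (x' j : ℝ) ((Pi.single i ((s : ℝ) / w i) : Fin d → ℝ) j)
      push_cast
      linarith
    exact_mod_cast h4

theorem hyp {d M : ℕ} {w : Fin d → ℤ} (hw : Prim w) (h : Good M (rv w)) :
    (V M (rv w)).card * (nm w * M) ≤ (2 * ((d + 2) * M) + 1) ^ d := by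
  classical
  have hex : ∀ s : ℤ, ∃ x : Fin d → ℤ, s ∈ Finset.Icc (1 : ℤ) (nm w * M : ℕ) →
      w ⬝ᵥ x = s ∧ ∀ j, |x j| ≤ ((d + 1) * M : ℕ) := by
    intro s
    by_cases hs : s ∈ Finset.Icc (1 : ℤ) (nm w * M : ℕ)
    · obtain ⟨a, b⟩ := Finset.mem_Icc.1 hs
      obtain ⟨x, hx⟩ := hyp_point hw h s (by omega) b
      exact ⟨x, fun _ => hx⟩
    · exact ⟨0, fun hc => (hs hc).elim⟩
  choose X hX using hex
  have hV : ∀ v ∈ V M (rv w), w ⬝ᵥ v = 0 ∧ ∀ j, |v j| ≤ M := by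
    intro v hv
    obtain ⟨a, b⟩ := mem_V.1 hv
    rw [hyp_rv_dot] at b
    exact ⟨by exact_mod_cast b, mem_box'.1 a⟩
  have key : ((V M (rv w)) ×ˢ Finset.Icc (1 : ℤ) (nm w * M : ℕ)).card ≤
      (box d ((d + 2) * M)).card := by
    refine Finset.card_le_card_of_injOn (fun q => X q.2 + q.1) ?_ ?_
    · intro q hq
      obtain ⟨a, b⟩ := Finset.mem_product.1 (Finset.mem_coe.1 hq)
      refine Finset.mem_coe.2 (mem_box'.2 fun j => ?_)
      have h1 := (hX q.2 b).2 j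
      have h2 := (hV q.1 a).2 j
      have h3 := abs_add_le (X q.2 j) (q.1 j)
      simp only [Pi.add_apply]
      push_cast at h1 h2 ⊢
      linarith
    · intro q hq q' hq' he
      obtain ⟨a, b⟩ := Finset.mem_product.1 (Finset.mem_coe.1 hq)
      obtain ⟨a', b'⟩ := Finset.mem_product.1 (Finset.mem_coe.1 hq')
      have he' : X q.2 + q.1 = X q'.2 + q'.1 := he
      have h1 := congrArg (fun x => w ⬝ᵥ x) he'
      simp only [dotProduct_add, (hX q.2 b).1, (hX q'.2 b').1, (hV q.1 a).1, (hV q'.1 a').1,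
        add_zero] at h1
      rw [h1] at he'
      exact Prod.ext (add_left_cancel he') h1
  rw [Finset.card_product, card_box, Int.card_Icc] at key
  have : ((nm w * M : ℕ) + 1 - 1 : ℤ).toNat = nm w * M := by
    rw [add_sub_cancel_right, Int.toNat_natCast]
  rwa [this] at key

end Vale.Agent.P054
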