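import Vale.Agent.P054.Reduce

namespace Vale.Agent.P054

open Finset Matrix

/-- the additive map given by the dot product with `c` -/
def normalMap {d : ℕ} (c : Fin d → ℝ) : (Fin d → ℤ) →+ ℝ where
  toFun x := c ⬝ᵥ rv x
  map_zero' := by simp [dotProduct, rv]
  map_add' x y := by simp [dotProduct, rv, mul_add, Finset.sum_add_distrib]

theorem normal {d M : ℕ} {c : Fin d → ℝ} (hc : c ≠ 0) (h : Good M c) :
    ∃ (w : Fin d → ℤ) (γ : ℝ), Prim w ∧ γ ≠ 0 ∧ c = γ • rv w := by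
  classical
  obtain ⟨i, hi⟩ := Function.ne_iff.1 hc
  simp only [Pi.zero_apply] at hi
  have hnd : ¬ Dense (((normalMap c).range : AddSubgroup ℝ) : Set ℝ) := by
    intro hd
    let F : Finset ℝ := (box d (⌈1 / |c i|⌉₊ + d * M)).image fun x => c ⬝ᵥ rv x
    have ho : IsOpen (Set.Ioo (0 : ℝ) 1 \ (F : Set ℝ)) :=
      isOpen_Ioo.sdiff F.finite_toSet.isClosed
    have hne : (Set.Ioo (0 : ℝ) 1 \ (F : Set ℝ)).Nonempty :=
      ((Set.Ioo_infinite zero_lt_one).diff F.finite_toSet).nonempty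
    obtain ⟨s, ⟨x, hx⟩, hs, hsF⟩ := hd.exists_mem_open ho hne
    have hx' : c ⬝ᵥ rv x = s := hx
    obtain ⟨x', h1, h2⟩ := reduce h x (Pi.single i (s / c i)) (by
      rw [dotProduct_single, hx']; field_simp)
    refine hsF (Finset.mem_coe.2 (Finset.mem_image.2 ⟨x', mem_box'.2 fun j => ?_, h1.trans hx'⟩))
    have h3 : |(Pi.single i (s / c i) : Fin d → ℝ) j| ≤ 1 / |c i| := by
      by_cases hj : j = i
      · subst hj
        rw [Pi.single_eq_same, abs_div]
        exact div_le_div_of_nonneg_right (abs_le.2 ⟨by linarith [hs.1], hs.2.le⟩) (abs_nonneg _)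
      · rw [Pi.single_eq_of_ne hj, abs_zero]
        positivity
    have h4 := Nat.le_ceil (1 / |c i|)
    have h5 := abs_add_le ((x' j : ℝ) - (Pi.single i (s / c i) : Fin d → ℝ) j)
      ((Pi.single i (s / c i) : Fin d → ℝ) j)
    rw [sub_add_cancel] at h5
    have h6 : |(x' j : ℝ)| ≤ (⌈1 / |c i|⌉₊ : ℝ) + d * M := by linarith [h2 j]
    have h7 : ((|x' j| : ℤ) : ℝ) ≤ (((⌈1 / |c i|⌉₊ + d * M : ℕ) : ℤ) : ℝ) := by
      push_cast
      exact h6
    exact_mod_cast h7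
  obtain ⟨γ, hγ⟩ := (AddSubgroup.dense_or_cyclic _).resolve_left hnd
  have h1 : ∀ j, ∃ n : ℤ, n • γ = c j := fun j => by
    rw [← AddSubgroup.mem_closure_singleton, ← hγ]
    refine ⟨Pi.single j 1, ?_⟩
    change c ⬝ᵥ rv (Pi.single j 1) = c j
    have : rv (Pi.single j 1 : Fin d → ℤ) = Pi.single j 1 := by
      funext k
      by_cases hk : k = j
      · subst hk; simp [rv]
      · simp [rv, Pi.single_eq_of_ne hk]
    rw [this, dotProduct_single, mul_one]
  choose w hw using h1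
  have hcw : c = γ • rv w := by
    funext j
    rw [← hw j]
    simp [rv, mul_comm]
  have hγ0 : γ ≠ 0 := by
    rintro rfl
    exact hc (by rw [hcw, zero_smul])
  have h2 : γ ∈ (normalMap c).range := by
    rw [hγ]
    exact AddSubgroup.subset_closure rfl
  obtain ⟨x0, hx0⟩ := h2
  have h3 : c ⬝ᵥ rv x0 = γ := hx0
  refine ⟨w, γ, ⟨x0, ?_⟩, hγ0, hcw⟩
  rw [hcw, smul_dotProduct, smul_eq_mul] at h3
  have h4 : rv w ⬝ᵥ rv x0 = 1 := mul_left_cancel₀ hγ0 (by rw [h3, mul_one])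
  have h5 : ((w ⬝ᵥ x0 : ℤ) : ℝ) = 1 := by
    rw [← h4]
    simp [dotProduct, rv]
  exact_mod_cast h5

end Vale.Agent.P054
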