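import Vale.Agent.P054.Defs

namespace Vale.Agent.P054

open Finset Matrix

theorem nm_smul {d : ℕ} (a : ℤ) (p : Fin d → ℤ) : nm (a • p) = a.natAbs * nm p := by
  have h := Finset.apply_sup_eq_sup_comp_of_linearOrder (s := Finset.univ)
    (f := fun i => (p i).natAbs) (fun k : ℕ => a.natAbs * k)
    (fun _ _ hxy => Nat.mul_le_mul_left _ hxy) (by simp)
  unfold nm
  rw [h]
  congr 1
  funext i
  simp [Int.natAbs_mul]

theorem exists_prim {d : ℕ} {u : Fin d → ℤ} (hu : u ≠ 0) :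
    ∃ (p : Fin d → ℤ) (a : ℤ), Prim p ∧ u = a • p := by
  obtain ⟨x, hx⟩ := Finset.gcd_eq_sum_mul Finset.univ u
  have hd : ∀ i, Finset.univ.gcd u ∣ u i := fun i => Finset.gcd_dvd (Finset.mem_univ i)
  choose p hp using hd
  generalize Finset.univ.gcd u = a at hx hp
  have e : u = a • p := funext fun i => by rw [hp i]; simp
  have ha : a ≠ 0 := by
    rintro rfl
    exact hu (by rw [e, zero_smul])
  refine ⟨p, a, ⟨x, mul_left_cancel₀ ha ?_⟩, e⟩
  rw [mul_one, dotProduct, Finset.mul_sum]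
  conv_rhs => rw [hx]
  exact Finset.sum_congr rfl fun i _ => by rw [hp i, mul_assoc]

theorem nm_le_of_smul {d : ℕ} {u p : Fin d → ℤ} {a : ℤ} (hu : u ≠ 0) (h : u = a • p) :
    nm p ≤ nm u := by
  have ha : a ≠ 0 := by
    rintro rfl
    exact hu (by rw [h, zero_smul])
  rw [h, nm_smul]
  exact Nat.le_mul_of_pos_left _ (Int.natAbs_pos.2 ha)

theorem line_int {d : ℕ} {u p x : Fin d → ℤ} (hx : p ⬝ᵥ x = 1) {r : ℝ} (h : rv u = r • rv p) :
    u = (u ⬝ᵥ x) • p := by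
  have hi : ∀ i, (u i : ℝ) = r * p i := fun i => congrFun h i
  have hr : ((u ⬝ᵥ x : ℤ) : ℝ) = r := by
    have h1 : ((p ⬝ᵥ x : ℤ) : ℝ) = 1 := by rw [hx]; simp
    rw [dotProduct] at h1 ⊢
    push_cast at h1 ⊢
    simp_rw [hi, mul_assoc]
    rw [← Finset.mul_sum, h1, mul_one]
  funext i
  have h2 : (u i : ℝ) = (((u ⬝ᵥ x) * p i : ℤ) : ℝ) := by
    rw [Int.cast_mul, hr, hi]
  exact_mod_cast h2

theorem prim_par {d : ℕ} {p p' : Fin d → ℤ} (hp : Prim p) (hp' : Prim p') {r : ℝ}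
    (h : rv p = r • rv p') : nm p = nm p' := by
  obtain ⟨x', hx'⟩ := hp'
  obtain ⟨x, hx⟩ := hp
  have e := line_int hx' h
  generalize p ⬝ᵥ x' = a at e
  rw [e, smul_dotProduct, smul_eq_mul] at hx
  have ha : a.natAbs = 1 := Int.isUnit_iff_natAbs_eq.1 (IsUnit.of_mul_eq_one _ hx)
  rw [e, nm_smul, ha, one_mul]

theorem line_card {d M : ℕ} {p : Fin d → ℤ} (hp : Prim p) (S : Finset (Fin d → ℤ))
    (hS : S ⊆ (box d M).erase 0) (h : ∀ u ∈ S, ∃ r : ℝ, rv u = r • rv p) :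
    S.card * nm p ≤ 2 * M := by
  have hpos := nm_pos hp.ne_zero
  obtain ⟨x, hx⟩ := hp
  have e : ∀ u ∈ S, u = (u ⬝ᵥ x) • p := fun u hu => by
    obtain ⟨r, hr⟩ := h u hu
    exact line_int hx hr
  have h1 : S.card ≤ ((Finset.Icc (-((M / nm p : ℕ) : ℤ)) (M / nm p : ℕ)).erase 0).card := by
    refine Finset.card_le_card_of_injOn (fun u => u ⬝ᵥ x) (fun u hu => ?_) fun u hu v hv huv => ?_
    · obtain ⟨h0, hb⟩ := Finset.mem_erase.1 (hS hu)
      have h2 := mem_box.1 hb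
      rw [e u hu, nm_smul, ← Nat.le_div_iff_mul_le hpos] at h2
      refine Finset.mem_coe.2 (Finset.mem_erase.2 ⟨fun h3 => h0 ?_, ?_⟩)
      · have h4 : u ⬝ᵥ x = 0 := h3
        rw [e u hu, h4, zero_smul]
      · show u ⬝ᵥ x ∈ _
        rw [Finset.mem_Icc]
        generalize M / nm p = K at h2
        omega
    · have h4 : u ⬝ᵥ x = v ⬝ᵥ x := huv
      rw [e u hu, h4, ← e v hv]
  rw [Finset.card_erase_of_mem (by simp; positivity), Int.card_Icc] at h1
  have h2 := Nat.div_mul_le_self M (nm p)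
  generalize M / nm p = K at h1 h2
  have h3 : S.card ≤ 2 * K := by omega
  calc S.card * nm p ≤ 2 * K * nm p := Nat.mul_le_mul_right _ h3
    _ = 2 * (K * nm p) := by ring
    _ ≤ 2 * M := Nat.mul_le_mul_left _ h2

end Vale.Agent.P054
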