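import Vale.Agent.P054.SumInv
import Vale.Agent.P054.Line

namespace Vale.Agent.P054

open Finset Matrix

theorem wt_rv_smul {d : ℕ} (a : ℤ) (p : Fin d → ℤ) : rv (a • p) = (a : ℝ) • rv p := by
  funext i
  simp [rv]

theorem wt_fiber {d : ℕ} (hd : 3 ≤ d) (M : ℕ) (S : Finset (Fin d → ℤ))
    (g : (Fin d → ℤ) → Fin d → ℤ) (f : (Fin d → ℤ) → ℝ) (hg : ∀ u ∈ S, g u ∈ (box d M).erase 0)
    (h : ∀ u0 ∈ S, ∑ u ∈ S with g u = g u0, f u ≤ 2 * M * (1 / (nm (g u0) : ℝ) ^ 2)) :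
    ∑ u ∈ S, f u ≤ 2 * M * (2 * d * 3 ^ (d - 1) * (M : ℝ) ^ (d - 2)) := by
  classical
  rw [← sum_fiberwise_of_maps_to hg]
  refine le_trans (sum_le_sum fun q _ => ?_) ((mul_sum _ _ _).ge.trans
    (mul_le_mul_of_nonneg_left (sumInv hd M) (by positivity)))
  rcases (S.filter fun u => g u = q).eq_empty_or_nonempty with e | ⟨u0, hu0⟩
  · rw [e, sum_empty]
    positivity
  · obtain ⟨h1, rfl⟩ := mem_filter.1 hu0
    exact h u0 h1

theorem weight {d : ℕ} (hd : 3 ≤ d) : ∃ C : ℝ, 0 < C ∧ ∀ M : ℕ, 1 ≤ M →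
    ∀ (S : Finset (Fin d → ℤ)) (w : (Fin d → ℤ) → Fin d → ℤ), S ⊆ (box d M).erase 0 →
      (∀ u ∈ S, w u ≠ 0) →
      (∀ u ∈ S, ∀ u' ∈ S, w u = w u' → ∃ r : ℝ, rv u = r • rv u') →
      ∑ u ∈ S, (1 : ℝ) / (nm (w u) : ℝ) ≤ C * (M : ℝ) ^ (d - 1) := by
  classical
  refine ⟨4 * (2 * d * 3 ^ (d - 1)) + 3 ^ d, by positivity, fun M hM S w hS hw hpar => ?_⟩
  have hM' : (1 : ℝ) ≤ M := by exact_mod_cast hM
  have hne : ∀ u ∈ S, u ≠ 0 := fun u hu => (mem_erase.1 (hS hu)).1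
  have : ∀ u : Fin d → ℤ, ∃ (p : Fin d → ℤ) (a : ℤ), u ≠ 0 → Prim p ∧ u = a • p := fun u => by
    by_cases hu : u = 0
    · exact ⟨0, 0, fun h => (h hu).elim⟩
    · obtain ⟨p, a, h⟩ := exists_prim hu
      exact ⟨p, a, fun _ => h⟩
  choose p a hpa using this
  have hP : ∀ u ∈ S, Prim (p u) := fun u hu => (hpa u (hne u hu)).1
  have hrv : ∀ u ∈ S, rv u = (a u : ℝ) • rv (p u) := fun u hu => by
    rw [← wt_rv_smul, ← (hpa u (hne u hu)).2]
  have hPM : ∀ u ∈ S, nm (p u) ≤ M := fun u hu =>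
    (nm_le_of_smul (hne u hu) (hpa u (hne u hu)).2).trans (mem_box.1 (mem_erase.1 (hS hu)).2)
  have hP0 : ∀ u ∈ S, (0 : ℝ) < nm (p u) := fun u hu => by
    exact_mod_cast nm_pos (hP u hu).ne_zero
  have hW0 : ∀ u ∈ S, (0 : ℝ) < nm (w u) := fun u hu => by exact_mod_cast nm_pos (hw u hu)
  have s1 : ∑ u ∈ S, (1 : ℝ) / nm (p u) ≤ _ :=
    wt_fiber hd M S p _ (fun u hu => mem_erase.2 ⟨(hP u hu).ne_zero, mem_box.2 (hPM u hu)⟩)
      fun u0 hu0 => by
        have h1 := line_card (hP u0 hu0) (S.filter fun u => p u = p u0)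
          ((filter_subset _ _).trans hS) fun u hu =>
            ⟨a u, by rw [← (mem_filter.1 hu).2]; exact hrv u (mem_filter.1 hu).1⟩
        have h2 : ((S.filter fun u => p u = p u0).card : ℝ) * nm (p u0) ≤ 2 * M := by
          exact_mod_cast h1
        have h3 := hP0 u0 hu0
        rw [sum_congr rfl fun u hu => by rw [(mem_filter.1 hu).2], sum_const, nsmul_eq_mul,
          mul_one_div, mul_one_div, div_le_div_iff₀ h3 (by positivity)]
        nlinarith
  have s2 : ∑ u ∈ S with nm (w u) ≤ M, (nm (p u) : ℝ) / (nm (w u) : ℝ) ^ 2 ≤ _ :=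
    wt_fiber hd M _ w _ (fun u hu => mem_erase.2 ⟨hw u (mem_filter.1 hu).1,
      mem_box.2 (mem_filter.1 hu).2⟩) fun u0 hu0 => by
        have hu0' := (mem_filter.1 hu0).1
        set T := (S.filter fun u => nm (w u) ≤ M).filter fun u => w u = w u0 with hT
        have hTS : ∀ u ∈ T, u ∈ S := fun u hu => (mem_filter.1 (mem_filter.1 hu).1).1
        have hr : ∀ u ∈ T, ∃ r : ℝ, rv u = r • rv (p u0) := fun u hu => by
          obtain ⟨r, hr⟩ := hpar u (hTS u hu) u0 hu0' (mem_filter.1 hu).2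
          exact ⟨r * a u0, by rw [hr, hrv u0 hu0', smul_smul]⟩
        have h1 := line_card (hP u0 hu0') T (fun u hu => hS (hTS u hu)) hr
        have h2 : (T.card : ℝ) * nm (p u0) ≤ 2 * M := by exact_mod_cast h1
        have h3 : ∀ u ∈ T, (nm (p u) : ℝ) / (nm (w u) : ℝ) ^ 2 =
            nm (p u0) * (1 / (nm (w u0) : ℝ) ^ 2) := fun u hu => by
          obtain ⟨r, hr⟩ := hr u hu
          have ha : (a u : ℝ) ≠ 0 := by
            intro h0
            have h5 : a u = 0 := by exact_mod_cast h0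
            have := (hpa u (hne u (hTS u hu))).2
            rw [h5, zero_smul] at this
            exact hne u (hTS u hu) this
          have h4 : rv (p u) = ((a u : ℝ)⁻¹ * r) • rv (p u0) := by
            rw [← smul_smul, ← hr, hrv u (hTS u hu), smul_smul, inv_mul_cancel₀ ha, one_smul]
          rw [prim_par (hP u (hTS u hu)) (hP u0 hu0') h4, (mem_filter.1 hu).2, mul_one_div]
        rw [sum_congr rfl h3, sum_const, nsmul_eq_mul, ← mul_assoc]
        exact mul_le_mul_of_nonneg_right h2 (by positivity)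
  have s3 : ∑ u ∈ S with ¬ nm (w u) ≤ M, (nm (p u) : ℝ) / (nm (w u) : ℝ) ^ 2 ≤
      3 ^ d * (M : ℝ) ^ (d - 1) := by
    have c1 : ((S.filter fun u => ¬ nm (w u) ≤ M).card : ℝ) ≤ (3 * M) ^ d := by
      have : (S.filter fun u => ¬ nm (w u) ≤ M).card ≤ (3 * M) ^ d :=
        (card_le_card ((filter_subset _ _).trans (hS.trans (erase_subset _ _)))).trans
          (by rw [card_box]; exact Nat.pow_le_pow_left (by omega) d)
      exact_mod_cast this
    calc _ ≤ ∑ u ∈ S with ¬ nm (w u) ≤ M, (1 : ℝ) / M := sum_le_sum fun u hu => by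
          have h1 : (nm (p u) : ℝ) ≤ M := by exact_mod_cast hPM u (mem_filter.1 hu).1
          have h2 : (M : ℝ) ≤ nm (w u) := by exact_mod_cast (not_le.1 (mem_filter.1 hu).2).le
          rw [div_le_div_iff₀ (by have := hW0 u (mem_filter.1 hu).1; positivity) (by positivity)]
          nlinarith
      _ ≤ (3 * M) ^ d * (1 / M) := by
          rw [sum_const, nsmul_eq_mul]
          gcongr
      _ = _ := by
          obtain ⟨e, rfl⟩ : ∃ e, d = e + 1 := ⟨d - 1, by omega⟩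
          rw [Nat.add_sub_cancel, mul_pow, pow_succ (M : ℝ)]
          field_simp
  have s4 : ∑ u ∈ S, (1 : ℝ) / (nm (w u) : ℝ) ≤
      ∑ u ∈ S, (nm (p u) : ℝ) / (nm (w u) : ℝ) ^ 2 + ∑ u ∈ S, (1 : ℝ) / nm (p u) := by
    rw [← sum_add_distrib]
    refine sum_le_sum fun u hu => ?_
    have h1 := hP0 u hu
    have h2 := hW0 u hu
    rw [div_add_div _ _ (by positivity) h1.ne', div_le_div_iff₀ h2 (by positivity)]
    nlinarith [mul_nonneg h2.le (sq_nonneg ((nm (p u) : ℝ) - nm (w u))),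
      mul_pos (mul_pos h2 h2) h1]
  rw [← sum_filter_add_sum_filter_not S (fun u => nm (w u) ≤ M)
    (fun u => (nm (p u) : ℝ) / (nm (w u) : ℝ) ^ 2)] at s4
  have e : (M : ℝ) ^ (d - 1) = M * (M : ℝ) ^ (d - 2) := by
    rw [← pow_succ']
    congr 1
    omega
  rw [e] at s3 ⊢
  nlinarith

end Vale.Agent.P054
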