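import Vale.Agent.P054.Low
import Vale.Agent.P054.Normal
import Vale.Agent.P054.Hyp
import Vale.Agent.P054.Weight

namespace Vale.Agent.P054

open Finset Matrix

theorem energy {d : ℕ} (hd : 3 ≤ d) : ∃ C : ℝ, 0 < C ∧ ∀ M : ℕ, 1 ≤ M →
    ∀ A : Matrix (Fin d) (Fin d) ℝ, (∀ y, A *ᵥ y = 0 → y = 0) →
      ∑ u ∈ box d M, ((V M (A *ᵥ rv u)).card : ℝ) ≤ C * (M : ℝ) ^ (2 * d - 2) := by
  classical
  obtain ⟨C, hC, hW⟩ := weight hd
  obtain ⟨K, hK⟩ : ∃ K : ℝ, K = (2 * ((d : ℝ) + 2) + 1) ^ d := ⟨_, rfl⟩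
  have hK0 : 0 < K := by rw [hK]; positivity
  refine ⟨3 ^ d + 3 ^ d * 3 ^ (d - 2) + K * C, by positivity, fun M hM A hA => ?_⟩
  have hM1 : (1 : ℝ) ≤ M := by exact_mod_cast hM
  have hM0 : (0 : ℝ) < M := by linarith
  have hrv0 : rv (0 : Fin d → ℤ) = 0 := by funext i; simp [rv]
  have hne : ∀ u : Fin d → ℤ, u ≠ 0 → A *ᵥ rv u ≠ 0 := by
    intro u hu h0
    exact hu (rv_injective ((hA _ h0).trans hrv0.symm))
  have hch : ∀ u : Fin d → ℤ, ∃ (w : Fin d → ℤ) (γ : ℝ), u ≠ 0 → Good M (A *ᵥ rv u) →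
      Prim w ∧ γ ≠ 0 ∧ A *ᵥ rv u = γ • rv w := by
    intro u
    by_cases h : u ≠ 0 ∧ Good M (A *ᵥ rv u)
    · obtain ⟨w, γ, h1⟩ := normal (hne u h.1) h.2
      exact ⟨w, γ, fun _ _ => h1⟩
    · exact ⟨0, 0, fun h1 h2 => absurd ⟨h1, h2⟩ h⟩
  choose w γ hw using hch
  obtain ⟨S, hS⟩ : ∃ S : Finset (Fin d → ℤ),
    S = ((box d M).erase 0).filter fun u => Good M (A *ᵥ rv u) := ⟨_, rfl⟩
  have hmem : ∀ u, u ∈ S ↔ (u ≠ 0 ∧ u ∈ box d M) ∧ Good M (A *ᵥ rv u) := by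
    intro u
    rw [hS, mem_filter, mem_erase]
  have hSsub : S ⊆ (box d M).erase 0 := by rw [hS]; exact filter_subset _ _
  have hsum := hW M hM S w hSsub
    (fun u hu => (hw u ((hmem u).1 hu).1.1 ((hmem u).1 hu).2).1.ne_zero)
    (fun u hu u' hu' he => by
      obtain ⟨-, h2, h3⟩ := hw u ((hmem u).1 hu).1.1 ((hmem u).1 hu).2
      obtain ⟨-, h2', h3'⟩ := hw u' ((hmem u').1 hu').1.1 ((hmem u').1 hu').2
      refine ⟨γ u / γ u', sub_eq_zero.1 (hA _ ?_)⟩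
      rw [Matrix.mulVec_sub, Matrix.mulVec_smul, h3, h3', he, smul_smul, div_mul_cancel₀ _ h2',
        sub_self])
  have h3M : ((2 * M + 1 : ℕ) : ℝ) ≤ 3 * M := by push_cast; linarith
  have hcard : ((box d M).card : ℝ) ≤ (3 * M) ^ d := by
    rw [card_box, Nat.cast_pow]
    exact pow_le_pow_left₀ (by positivity) h3M d
  have hpt : ∀ u ∈ box d M, ((V M (A *ᵥ rv u)).card : ℝ) ≤
      (if u = 0 then ((3 : ℝ) * M) ^ d else 0) + ((3 : ℝ) * M) ^ (d - 2) +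
        (if u ∈ S then K * (M : ℝ) ^ (d - 1) * (1 / (nm (w u) : ℝ)) else 0) := by
    intro u hu
    have p1 : (0 : ℝ) ≤ (if u = 0 then ((3 : ℝ) * M) ^ d else 0) := by
      split_ifs <;> positivity
    have p2 : (0 : ℝ) ≤ ((3 : ℝ) * M) ^ (d - 2) := by positivity
    have p3 : (0 : ℝ) ≤
        (if u ∈ S then K * (M : ℝ) ^ (d - 1) * (1 / (nm (w u) : ℝ)) else 0) := by
      split_ifs <;> positivity
    by_cases hu0 : u = 0
    · have h1 : ((V M (A *ᵥ rv u)).card : ℝ) ≤ (box d M).card := by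
        exact_mod_cast card_le_card (fun v hv => (mem_V.1 hv).1)
      rw [if_pos hu0]
      linarith
    · by_cases hg : Good M (A *ᵥ rv u)
      · obtain ⟨h1, h2, h3⟩ := hw u hu0 hg
        rw [if_pos ((hmem u).2 ⟨⟨hu0, hu⟩, hg⟩)]
        rw [h3] at hg
        have h4 := hyp h1 (Good.of_smul h2 hg)
        have hn : (0 : ℝ) < nm (w u) := by exact_mod_cast nm_pos h1.ne_zero
        have h5 : ((V M (rv (w u))).card : ℝ) * ((nm (w u) : ℝ) * M) ≤
            (2 * (((d : ℝ) + 2) * M) + 1) ^ d := by exact_mod_cast h4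
        have h6 : (2 * (((d : ℝ) + 2) * M) + 1) ^ d ≤ K * (M : ℝ) ^ d := by
          rw [hK, ← mul_pow]
          exact pow_le_pow_left₀ (by positivity) (by nlinarith) d
        have h7 : (M : ℝ) ^ d = (M : ℝ) ^ (d - 1) * M := by
          rw [← pow_succ]; congr 1; omega
        have h8 : ((V M (rv (w u))).card : ℝ) ≤
            K * (M : ℝ) ^ (d - 1) * (1 / (nm (w u) : ℝ)) := by
          rw [mul_one_div, le_div_iff₀ hn]
          refine le_of_mul_le_mul_right ?_ hM0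
          calc ((V M (rv (w u))).card : ℝ) * (nm (w u) : ℝ) * M
              = ((V M (rv (w u))).card : ℝ) * ((nm (w u) : ℝ) * M) := by ring
            _ ≤ K * (M : ℝ) ^ d := h5.trans h6
            _ = _ := by rw [h7]; ring
        rw [h3, V_smul h2]
        linarith
      · have h1 := low (hne u hu0) hg
        have h2 : ((V M (A *ᵥ rv u)).card : ℝ) ≤ ((2 * M + 1 : ℕ) : ℝ) ^ (d - 2) := by
          exact_mod_cast h1
        have h3 : ((2 * M + 1 : ℕ) : ℝ) ^ (d - 2) ≤ ((3 : ℝ) * M) ^ (d - 2) :=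
          pow_le_pow_left₀ (by positivity) h3M _
        linarith
  have e1 : ∑ u ∈ box d M, (if u = 0 then ((3 : ℝ) * M) ^ d else 0) ≤
      3 ^ d * (M : ℝ) ^ (2 * d - 2) := by
    rw [Finset.sum_ite_eq']
    have h1 : ((3 : ℝ) * M) ^ d ≤ 3 ^ d * (M : ℝ) ^ (2 * d - 2) := by
      rw [mul_pow]
      exact mul_le_mul_of_nonneg_left (pow_le_pow_right₀ hM1 (by omega)) (by positivity)
    split_ifs
    · exact h1
    · positivity
  have e2 : ∑ _u ∈ box d M, ((3 : ℝ) * M) ^ (d - 2) ≤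
      3 ^ d * 3 ^ (d - 2) * (M : ℝ) ^ (2 * d - 2) := by
    rw [Finset.sum_const, nsmul_eq_mul]
    have h1 : (M : ℝ) ^ (2 * d - 2) = (M : ℝ) ^ d * (M : ℝ) ^ (d - 2) := by
      rw [← pow_add]; congr 1; omega
    calc _ ≤ ((3 : ℝ) * M) ^ d * ((3 : ℝ) * M) ^ (d - 2) :=
          mul_le_mul_of_nonneg_right hcard (by positivity)
      _ = _ := by rw [h1, mul_pow, mul_pow]; ring
  have e3 : ∑ u ∈ box d M,
      (if u ∈ S then K * (M : ℝ) ^ (d - 1) * (1 / (nm (w u) : ℝ)) else 0) ≤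
      K * C * (M : ℝ) ^ (2 * d - 2) := by
    have hsub : S ⊆ box d M := hSsub.trans (erase_subset _ _)
    rw [Finset.sum_ite_mem, Finset.inter_eq_right.2 hsub, ← Finset.mul_sum]
    have h1 : (M : ℝ) ^ (2 * d - 2) = (M : ℝ) ^ (d - 1) * (M : ℝ) ^ (d - 1) := by
      rw [← pow_add]; congr 1; omega
    calc _ ≤ K * (M : ℝ) ^ (d - 1) * (C * (M : ℝ) ^ (d - 1)) :=
          mul_le_mul_of_nonneg_left hsum (by positivity)
      _ = _ := by rw [h1]; ring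
  refine (Finset.sum_le_sum hpt).trans ?_
  rw [Finset.sum_add_distrib, Finset.sum_add_distrib]
  linarith

end Vale.Agent.P054
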