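import Vale.Agent.P054.Defs

namespace Vale.Agent.P054

open Finset Matrix

theorem low {d M : ℕ} {c : Fin d → ℝ} (hc : c ≠ 0) (h : ¬ Good M c) :
    (V M c).card ≤ (2 * M + 1) ^ (d - 2) := by
  classical
  unfold Good at h
  push Not at h
  obtain ⟨y, hy, hyW⟩ := h
  obtain ⟨ψ, hψ, hle⟩ := Submodule.exists_le_ker_of_notMem hyW
  let b : Fin d → ℝ := fun j => ψ (Pi.single j 1)
  have hb : ∀ z : Fin d → ℝ, ψ z = b ⬝ᵥ z := by
    intro z
    conv_lhs => rw [← Finset.univ_sum_single z, map_sum]
    refine Finset.sum_congr rfl fun j _ => ?_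
    have : (Pi.single j (z j) : Fin d → ℝ) = z j • (Pi.single j 1 : Fin d → ℝ) := by
      rw [← Pi.single_smul, smul_eq_mul, mul_one]
    rw [this, map_smul, smul_eq_mul, mul_comm]
  obtain ⟨i, hi⟩ := Function.ne_iff.1 hc
  have hi : c i ≠ 0 := hi
  have hmin : ∃ j, c i * b j - c j * b i ≠ 0 := by
    by_contra hcon
    push Not at hcon
    apply hψ
    have h1 : c i * (b ⬝ᵥ y) = b i * (c ⬝ᵥ y) := by
      simp only [dotProduct, Finset.mul_sum]
      refine Finset.sum_congr rfl fun j _ => ?_
      linear_combination y j * hcon j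
    rw [hy, mul_zero] at h1
    rw [hb]
    exact (mul_eq_zero.1 h1).resolve_left hi
  obtain ⟨j, hj⟩ := hmin
  have hij : i ≠ j := by
    rintro rfl
    exact hj (sub_self _)
  let f : (Fin d → ℤ) → ({k // k ∈ (univ.erase i).erase j} → ℤ) := fun v k => v k
  have hcard : Fintype.card {k // k ∈ (univ.erase i).erase j} = d - 2 := by
    rw [Fintype.card_coe, Finset.card_erase_of_mem (by simp [hij.symm]),
      Finset.card_erase_of_mem (mem_univ _), Finset.card_univ, Fintype.card_fin]
    omega
  have h2 : (Fintype.piFinset fun _ : {k // k ∈ (univ.erase i).erase j} =>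
      Finset.Icc (-(M : ℤ)) M).card = (2 * M + 1) ^ (d - 2) := by
    rw [Fintype.card_piFinset, prod_const, card_univ, Int.card_Icc]
    congr 1
    · omega
    · convert hcard
  rw [← h2]
  refine Finset.card_le_card_of_injOn f ?_ ?_
  · intro v hv
    have h3 := mem_box'.1 (mem_V.1 hv).1
    simp only [Finset.mem_coe, Fintype.mem_piFinset, Finset.mem_Icc, f]
    exact fun k => abs_le.1 (h3 k)
  · intro v hv v' hv' hf
    have hz : ∀ k, k ≠ i → k ≠ j → rv v k - rv v' k = 0 := by
      intro k h1 h2
      have := congrFun hf ⟨k, by simp [h1, h2]⟩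
      simp only [f] at this
      simp [rv, this]
    have hsum : ∀ a : Fin d → ℝ, a ⬝ᵥ rv v - a ⬝ᵥ rv v' =
        a i * (rv v i - rv v' i) + a j * (rv v j - rv v' j) := by
      intro a
      rw [← dotProduct_sub, dotProduct]
      refine Finset.sum_eq_add i j hij (fun k _ hk => ?_) (by simp) (by simp)
      rw [Pi.sub_apply, hz k hk.1 hk.2, mul_zero]
    have h3 := hsum c
    rw [(mem_V.1 hv).2, (mem_V.1 hv').2] at h3
    have h4 := hsum b
    have h5 : ψ (rv v) = 0 := hle (Submodule.subset_span ⟨v, hv, rfl⟩)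
    have h6 : ψ (rv v') = 0 := hle (Submodule.subset_span ⟨v', hv', rfl⟩)
    rw [← hb, ← hb, h5, h6] at h4
    have h7 : rv v j - rv v' j = 0 := by
      have : (c i * b j - c j * b i) * (rv v j - rv v' j) = 0 := by
        linear_combination b i * h3 - c i * h4
      exact (mul_eq_zero.1 this).resolve_left hj
    have h8 : rv v i - rv v' i = 0 := by
      rw [h7] at h3
      have : c i * (rv v i - rv v' i) = 0 := by linear_combination -h3
      exact (mul_eq_zero.1 this).resolve_left hi
    apply rv_injective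
    funext k
    apply sub_eq_zero.1
    by_cases h1 : k = i
    · rw [h1]; exact h8
    · by_cases h2 : k = j
      · rw [h2]; exact h7
      · exact hz k h1 h2

end Vale.Agent.P054
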