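import Vale.Agent.P054.Defs

namespace Vale.Agent.P054

open Finset Matrix

theorem reduce {d M : ℕ} {c : Fin d → ℝ} (h : Good M c) (x : Fin d → ℤ) (y : Fin d → ℝ)
    (hy : c ⬝ᵥ y = c ⬝ᵥ rv x) :
    ∃ x' : Fin d → ℤ, c ⬝ᵥ rv x' = c ⬝ᵥ rv x ∧ ∀ i, |(x' i : ℝ) - y i| ≤ d * M := by
  have hm := h (rv x - y) (by rw [dotProduct_sub, hy, sub_self])
  obtain ⟨f, hf1, hf2, -⟩ :=
    Submodule.exists_fun_fin_finrank_span_eq ℝ (rv '' (V M c : Set (Fin d → ℤ)))
  have hk : Module.finrank ℝ (Submodule.span ℝ (rv '' (V M c : Set (Fin d → ℤ)))) ≤ d := by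
    refine (Submodule.finrank_le _).trans ?_
    simp
  rw [← hf2, Submodule.mem_span_range_iff_exists_fun] at hm
  obtain ⟨t, ht⟩ := hm
  choose v hv1 hv2 using hf1
  clear hf2
  generalize Module.finrank ℝ (Submodule.span ℝ (rv '' (V M c : Set (Fin d → ℤ)))) = k at *
  have hv3 : ∀ j, v j ∈ box d M ∧ c ⬝ᵥ rv (v j) = 0 := fun j => mem_V.1 (hv1 j)
  have e : rv (x - ∑ j, ⌊t j⌋ • v j) = rv x - ∑ j, (⌊t j⌋ : ℝ) • rv (v j) := by
    funext i
    simp [rv, Finset.sum_apply]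
  refine ⟨x - ∑ j, ⌊t j⌋ • v j, ?_, fun i => ?_⟩
  · rw [e, dotProduct_sub, dotProduct_sum]
    simp [(hv3 _).2]
  · have h1 : (((x - ∑ j, ⌊t j⌋ • v j) i : ℤ) : ℝ) - y i = ∑ j, Int.fract (t j) * v j i := by
      have h2 := congrFun e i
      have h3 := congrFun ht i
      simp only [← hv2, rv, Finset.sum_apply, Pi.smul_apply, smul_eq_mul, Pi.sub_apply] at h2 h3
      simp only [Int.fract, sub_mul, Finset.sum_sub_distrib, Pi.sub_apply, Finset.sum_apply,
        Pi.smul_apply, smul_eq_mul]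
      linarith
    rw [h1]
    refine (Finset.abs_sum_le_sum_abs _ _).trans ?_
    have h4 : ∀ j ∈ (Finset.univ : Finset (Fin k)), |Int.fract (t j) * v j i| ≤ (M : ℝ) := by
      intro j _
      have h5 : |(v j i : ℝ)| ≤ M := by exact_mod_cast mem_box'.1 (hv3 j).1 i
      rw [abs_mul, abs_of_nonneg (Int.fract_nonneg _)]
      exact (mul_le_of_le_one_left (abs_nonneg _) (Int.fract_lt_one _).le).trans h5
    refine (Finset.sum_le_sum h4).trans ?_
    rw [Finset.sum_const, Finset.card_univ, Fintype.card_fin, nsmul_eq_mul]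
    exact mul_le_mul_of_nonneg_right (by exact_mod_cast hk) (Nat.cast_nonneg M)

end Vale.Agent.P054
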