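import Vale.Agent.P054.Defs

namespace Vale.Agent.P054

open Finset Matrix

theorem SumInv_pow (a : ℝ) (ha : 0 ≤ a) (e : ℕ) :
    (a + 2) ^ (e + 1) - a ^ (e + 1) ≤ 2 * (e + 1) * (a + 2) ^ e := by
  induction e with
  | zero => simp
  | succ e ih =>
    have h1 : a ^ (e + 1) ≤ (a + 2) ^ (e + 1) := pow_le_pow_left₀ ha (by linarith) _
    have h2 := mul_le_mul_of_nonneg_left ih (by linarith : 0 ≤ a + 2)
    have h3 : (a + 2) ^ (e + 1 + 1) = (a + 2) * (a + 2) ^ (e + 1) := by ring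
    have h4 : a ^ (e + 1 + 1) = a * a ^ (e + 1) := by ring
    have h5 : (a + 2) ^ (e + 1) = (a + 2) * (a + 2) ^ e := by ring
    push_cast
    nlinarith

theorem sumInv {d : ℕ} (hd : 3 ≤ d) (M : ℕ) :
    ∑ u ∈ (box d M).erase 0, (1 : ℝ) / (nm u : ℝ) ^ 2 ≤ 2 * d * 3 ^ (d - 1) * (M : ℝ) ^ (d - 2) := by
  obtain ⟨e, rfl⟩ : ∃ e, d = e + 3 := ⟨d - 3, by omega⟩
  rw [show e + 3 - 1 = e + 2 from rfl, show e + 3 - 2 = e + 1 from rfl]
  induction M with
  | zero =>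
    rw [sum_eq_zero]
    · positivity
    · intro u hu
      have h1 := nm_pos (mem_erase.1 hu).1
      have h2 := mem_box.1 (mem_erase.1 hu).2
      omega
  | succ M ih =>
    have hs : box (e + 3) M ⊆ box (e + 3) (M + 1) := fun u hu =>
      mem_box.2 ((mem_box.1 hu).trans (Nat.le_succ M))
    have h0 : (0 : Fin (e + 3) → ℤ) ∈ box (e + 3) M := mem_box'.2 fun i => by simp
    rw [← sum_sdiff (erase_subset_erase 0 hs)]
    have e1 : (box (e + 3) (M + 1)).erase 0 \ (box (e + 3) M).erase 0 =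
        box (e + 3) (M + 1) \ box (e + 3) M := by
      ext u
      simp only [mem_sdiff, mem_erase]
      constructor
      · rintro ⟨⟨h1, h2⟩, h3⟩
        exact ⟨h2, fun h => h3 ⟨h1, h⟩⟩
      · rintro ⟨h1, h2⟩
        exact ⟨⟨fun h => h2 (h ▸ h0), h1⟩, fun h => h2 h.2⟩
    have e2 : ∑ u ∈ box (e + 3) (M + 1) \ box (e + 3) M, (1 : ℝ) / (nm u : ℝ) ^ 2 =
        ((2 * (M : ℝ) + 1 + 2) ^ (e + 2 + 1) - (2 * (M : ℝ) + 1) ^ (e + 2 + 1)) /
          ((M : ℝ) + 1) ^ 2 := by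
      rw [sum_congr rfl (g := fun _ => (1 : ℝ) / ((M : ℝ) + 1) ^ 2) fun u hu => by
        have h1 := mem_box.1 (mem_sdiff.1 hu).1
        have h2 := mem_box.not.1 (mem_sdiff.1 hu).2
        rw [show nm u = M + 1 by omega]; push_cast; rfl]
      rw [sum_const, nsmul_eq_mul, cast_card_sdiff hs, card_box, card_box]
      push_cast
      ring
    have h1 := SumInv_pow (2 * (M : ℝ) + 1) (by positivity) (e + 2)
    have h2 : (2 * (M : ℝ) + 1 + 2) ^ (e + 2) ≤ (3 * ((M : ℝ) + 1)) ^ (e + 2) :=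
      pow_le_pow_left₀ (by positivity) (by have := Nat.cast_nonneg (α := ℝ) M; linarith) _
    have h3 : ((2 * (M : ℝ) + 1 + 2) ^ (e + 2 + 1) - (2 * (M : ℝ) + 1) ^ (e + 2 + 1)) /
          ((M : ℝ) + 1) ^ 2 ≤ 2 * ((e + 3 : ℕ) : ℝ) * 3 ^ (e + 2) * ((M : ℝ) + 1) ^ e := by
      rw [div_le_iff₀ (by positivity)]
      refine h1.trans ((mul_le_mul_of_nonneg_left h2 (by positivity)).trans (le_of_eq ?_))
      rw [mul_pow]
      push_cast
      ring
    have h4 : (M : ℝ) ^ (e + 1) + ((M : ℝ) + 1) ^ e ≤ ((M : ℝ) + 1) ^ (e + 1) := by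
      have h5 : (M : ℝ) ^ e ≤ ((M : ℝ) + 1) ^ e := pow_le_pow_left₀ (by positivity) (by linarith) _
      have h6 := mul_le_mul_of_nonneg_left h5 (Nat.cast_nonneg (α := ℝ) M)
      rw [pow_succ, pow_succ]
      linarith
    have h7 := mul_le_mul_of_nonneg_left h4
      (by positivity : (0 : ℝ) ≤ 2 * ((e + 3 : ℕ) : ℝ) * 3 ^ (e + 2))
    rw [e1, e2, Nat.cast_succ M]
    linarith

end Vale.Agent.P054
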