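import Vale.Agent.P054.Energy

namespace Vale.Agent.P054

open Finset Matrix

theorem cs_pairs {ι β : Type} [DecidableEq β] (q : ι → β) (X : Finset ι) :
    X.card ^ 2 ≤ (X.image q).card * ((X ×ˢ X).filter fun p => q p.1 = q p.2).card := by
  classical
  have h1 := card_eq_sum_card_image q X
  have h2 : ((X ×ˢ X).filter fun p => q p.1 = q p.2).card =
      ∑ b ∈ X.image q, (X.filter fun a => q a = b).card ^ 2 := by
    rw [card_eq_sum_card_fiberwise (f := fun p : ι × ι => q p.1) (t := X.image q)]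
    · refine sum_congr rfl fun b _ => ?_
      rw [sq, ← card_product]
      congr 1
      ext ⟨x, y⟩
      simp only [mem_filter, mem_product]
      constructor
      · rintro ⟨⟨⟨hx, hy⟩, h⟩, h'⟩
        exact ⟨⟨hx, h'⟩, hy, h ▸ h'⟩
      · rintro ⟨⟨hx, h⟩, hy, h'⟩
        exact ⟨⟨⟨hx, hy⟩, h.trans h'.symm⟩, h⟩
    · intro p hp
      exact mem_image_of_mem q (mem_product.1 (mem_filter.1 hp).1).1
  rw [h2]
  calc X.card ^ 2 = (∑ b ∈ X.image q, (X.filter fun a => q a = b).card) ^ 2 := by rw [← h1]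
    _ ≤ _ := sq_sum_le_card_mul_sum_sq

theorem rv_sub' {d : ℕ} (x y : Fin d → ℤ) : rv (x - y) = rv x - rv y := by
  funext i
  simp [rv]

theorem rv_add' {d : ℕ} (x y : Fin d → ℤ) : rv (x + y) = rv x + rv y := by
  funext i
  simp [rv]

open Classical in
theorem values {d : ℕ} (hd : 3 ≤ d) : ∃ C : ℝ, 0 < C ∧ ∀ N : ℕ, 1 ≤ N →
    ∀ A : Matrix (Fin d) (Fin d) ℝ, A.IsSymm → (∀ y, A *ᵥ y = 0 → y = 0) →
      ∀ X : Finset (Fin d → ℤ), X ⊆ box d N →
        (X.card : ℝ) ^ 2 ≤
          C * (N : ℝ) ^ (2 * d - 2) * (X.image fun x => rv x ⬝ᵥ A *ᵥ rv x).card := by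
  obtain ⟨C, hC, hE⟩ := energy hd
  refine ⟨C * 2 ^ (2 * d - 2), by positivity, fun N hN A hA hA0 X hX => ?_⟩
  set q : (Fin d → ℤ) → ℝ := fun x => rv x ⬝ᵥ A *ᵥ rv x with hq
  have h1 := cs_pairs q X
  have hsym : ∀ a b : Fin d → ℝ, a ⬝ᵥ A *ᵥ b = b ⬝ᵥ A *ᵥ a := by
    intro a b
    rw [dotProduct_mulVec, ← mulVec_transpose, hA.eq, dotProduct_comm]
  have h2 : ((X ×ˢ X).filter fun p => q p.1 = q p.2).card ≤
      ((box d (2 * N)).sigma fun u => V (2 * N) (A *ᵥ rv u)).card := by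
    refine card_le_card_of_injOn (fun p => ⟨p.1 - p.2, p.1 + p.2⟩) (fun p hp => ?_) ?_
    · obtain ⟨hp1, hp2⟩ := mem_filter.1 hp
      obtain ⟨hx, hy⟩ := mem_product.1 hp1
      have hx' := mem_box'.1 (hX hx)
      have hy' := mem_box'.1 (hX hy)
      refine mem_coe.2 (mem_sigma.2 ⟨mem_box'.2 fun i => ?_, mem_V.2 ⟨mem_box'.2 fun i => ?_, ?_⟩⟩)
      · have a1 := abs_le.1 (hx' i)
        have a2 := abs_le.1 (hy' i)
        simp only [Pi.sub_apply]
        push_cast
        exact abs_le.2 ⟨by linarith [a1.1, a2.2], by linarith [a1.2, a2.1]⟩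
      · have a1 := abs_le.1 (hx' i)
        have a2 := abs_le.1 (hy' i)
        simp only [Pi.add_apply]
        push_cast
        exact abs_le.2 ⟨by linarith [a1.1, a2.1], by linarith [a1.2, a2.2]⟩
      · simp only [hq] at hp2
        simp only [rv_sub', rv_add']
        rw [dotProduct_comm, mulVec_sub, dotProduct_sub, add_dotProduct, add_dotProduct,
          hsym (rv p.2) (rv p.1), hp2]
        ring
    · rintro ⟨x, y⟩ _ ⟨x', y'⟩ _ h
      simp only [Sigma.mk.injEq, heq_eq_eq] at h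
      obtain ⟨h3, h4⟩ := h
      refine Prod.ext (funext fun i => ?_) (funext fun i => ?_)
      · have a1 := congrFun h3 i
        have a2 := congrFun h4 i
        simp only [Pi.sub_apply, Pi.add_apply] at a1 a2
        show x i = x' i
        omega
      · have a1 := congrFun h3 i
        have a2 := congrFun h4 i
        simp only [Pi.sub_apply, Pi.add_apply] at a1 a2
        show y i = y' i
        omega
  rw [card_sigma] at h2
  have h3 := hE (2 * N) (by omega) A hA0
  have h4 : ((X.card : ℝ)) ^ 2 ≤ ((X.image q).card : ℝ) *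
      ∑ u ∈ box d (2 * N), ((V (2 * N) (A *ᵥ rv u)).card : ℝ) := by
    exact_mod_cast h1.trans (Nat.mul_le_mul_left _ h2)
  refine h4.trans ((mul_le_mul_of_nonneg_left h3 (Nat.cast_nonneg _)).trans (le_of_eq ?_))
  push_cast
  rw [mul_pow]
  ring

end Vale.Agent.P054
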